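import Mathlib

namespace Vale.Agent.P355

open IntermediateField in
theorem cyc (q : ℕ) (hq : ¬ 4 ∣ q) (z : ℂ) (hz : z ^ q = 1) :
    Complex.I ∉ Subfield.closure {z} := by
  intro hI
  obtain ⟨m, hm, h2⟩ : ∃ m, Odd m ∧ z ^ (2 * m) = 1 := by
    rcases Nat.even_or_odd' q with ⟨k, rfl | rfl⟩
    · exact ⟨k, Nat.odd_iff.2 (by omega), hz⟩
    · exact ⟨2 * k + 1, ⟨k, rfl⟩, by rw [mul_comm, pow_mul, hz, one_pow]⟩
  have hd : orderOf (z ^ 2) ∣ m := orderOf_dvd_of_pow_eq_one (by rw [← pow_mul, h2])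
  have ho : Odd (orderOf (z ^ 2)) := hm.of_dvd_nat hd
  have : NeZero (orderOf (z ^ 2)) := ⟨ho.pos.ne'⟩
  have hc : IsCyclotomicExtension {orderOf (z ^ 2)} ℚ ℚ⟮z ^ 2⟯ :=
    (IntermediateField.isCyclotomicExtension_singleton_iff_eq_adjoin _ _ _ _
      (IsPrimitiveRoot.orderOf (z ^ 2))).2 rfl
  have hle : Subfield.closure {z} ≤ ℚ⟮z ^ 2⟯.toSubfield := by
    rw [Subfield.closure_le, Set.singleton_subset_iff]
    obtain ⟨k, rfl⟩ := hm
    have h3 : (z ^ 2) ^ (k + 1) ∈ ℚ⟮z ^ 2⟯ := pow_mem (mem_adjoin_simple_self ℚ _) _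
    have h4 : (z ^ (2 * k + 1)) ^ 2 = 1 := by rw [← pow_mul, mul_comm, h2]
    have h5 : (z ^ 2) ^ (k + 1) = z ^ (2 * k + 1) * z := by ring
    rcases sq_eq_one_iff.1 h4 with h | h
    · rw [h5, h, one_mul] at h3
      exact h3
    · rw [h5, h, neg_one_mul] at h3
      exact neg_mem_iff.1 h3
  have hp : IsPrimitiveRoot (⟨Complex.I, hle hI⟩ : ℚ⟮z ^ 2⟯) 4 := by
    rw [← IsPrimitiveRoot.coe_submonoidClass_iff]
    exact Complex.isPrimitiveRoot_I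
  have : NumberField ℚ⟮z ^ 2⟯ := IsCyclotomicExtension.numberField {orderOf (z ^ 2)} ℚ _
  have := hp.dvd_of_isCyclotomicExtension (orderOf (z ^ 2)) (by norm_num)
  obtain ⟨k, hk⟩ := ho
  omega

end Vale.Agent.P355
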