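import Mathlib

namespace Vale.Agent.P355

/-- The Hilbert space `ℂ^6`. -/
abbrev C6 : Type := EuclideanSpace ℂ (Fin 6)

/-- Orthonormal bases of `ℂ^6`. -/
abbrev Basis6 : Type := OrthonormalBasis (Fin 6) ℂ C6

/-- The Hermitian inner product of `ℂ^6`. -/
noncomputable def ip (u v : C6) : ℂ := inner ℂ u v

/-- The `j`-th vector of an orthonormal basis. -/
noncomputable def vec (e : Basis6) (j : Fin 6) : C6 := e j

/-- Seven pairwise mutually unbiased orthonormal bases of `ℂ^6`. -/
def MUB (b : Fin 7 → Basis6) : Prop :=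
  ∀ a a', a ≠ a' → ∀ j k, ‖ip (vec (b a) j) (vec (b a') k)‖ ^ 2 = 1 / 6

/-- The triple product `⟨u,v⟩⟨v,w⟩⟨w,u⟩`. -/
noncomputable def triple (u v w : C6) : ℂ := ip u v * ip v w * ip w u

/-- All triple products of vectors taken from the bases. -/
def triples (b : Fin 7 → Basis6) : Set ℂ :=
  {t | ∃ a j c k d l, triple (vec (b a) j) (vec (b c) k) (vec (b d) l) = t}

end Vale.Agent.P355
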