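import Mathlib

namespace Vale.Agent.P355

/-- the space ℂ^6 -/
abbrev E6 := EuclideanSpace ℂ (Fin 6)

/-- orthonormal bases of ℂ^6 -/
abbrev ONB := OrthonormalBasis (Fin 6) ℂ E6

/-- unitary maps of ℂ^6 -/
abbrev Un := E6 ≃ₗᵢ[ℂ] E6

/-- mutually unbiased -/
def Unbiased (B C : ONB) : Prop := ∀ i j, ‖inner ℂ (B i) (C j)‖ ^ 2 = 1 / 6

/-- `U` sends each vector of `B` to a multiple of a vector of `C` -/
def Sends (U : Un) (B C : ONB) : Prop := ∀ i, ∃ j, ∃ a : ℂ, U (B i) = a • C j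

/-- the `n`-th power of `U` is a scalar map -/
def ScalarPow (U : Un) (n : ℕ) : Prop := ∃ c : ℂ, ∀ x : E6, (U ^ n) x = c • x

end Vale.Agent.P355
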