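import Mathlib

namespace Vale.Agent.P355

open Matrix

/-- Gram block -/
def blk : Matrix (Fin 6) (Fin 6) ℚ := Matrix.of fun j k =>
  if j = 5 then (if k = 5 then 1 else 0) else if k = 5 then 0 else (if j = k then 1 else 0) - 1 / 6

/-- inverse of the Gram block -/
def blk' : Matrix (Fin 6) (Fin 6) ℚ := Matrix.of fun j k =>
  if j = 5 then (if k = 5 then 1 else 0) else if k = 5 then 0 else (if j = k then 1 else 0) + 1

theorem blk_det : blk.det ≠ 0 := by
  have h : blk * blk' = 1 := by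
    ext i j
    fin_cases i <;> fin_cases j <;> simp [blk, blk', Matrix.mul_apply, Fin.sum_univ_six] <;> norm_num
  exact (Matrix.isUnit_det_of_right_inverse h).ne_zero

theorem sign_swap : Equiv.Perm.sign (Equiv.prodComm (Fin 6) (Fin 6)) = -1 := by
  rw [Equiv.Perm.sign_of_pow_two_eq_one (by ext x <;> simp [pow_two])]
  have : Fintype.card (Function.fixedPoints (Equiv.prodComm (Fin 6) (Fin 6))) = 6 := by
    rw [Fintype.card_subtype]
    rfl
  rw [this]
  rfl

theorem disc (P : Fin 7 → Fin 6 → Matrix (Fin 6) (Fin 6) ℂ) (K : Subfield ℂ)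
    (hK : ∀ a j k l, P a j k l ∈ K) (h1 : ∀ a j, (P a j).trace = 1)
    (h2 : ∀ a j k, (P a j * P a k).trace = if j = k then 1 else 0)
    (h3 : ∀ a a', a ≠ a' → ∀ j k, (P a j * P a' k).trace = 1 / 6) : Complex.I ∈ K := by
  obtain ⟨M, hM⟩ : ∃ M : Fin 6 × Fin 6 → Matrix (Fin 6) (Fin 6) ℂ, M = fun x =>
    if x.1 = 5 then P (Fin.last 6) x.2 else P x.2.castSucc x.1 - (1 / 6 : ℂ) • 1 := ⟨_, rfl⟩
  have hMK : ∀ x k l, M x k l ∈ K := by
    intro x k l
    rw [hM]
    dsimp only
    split_ifs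
    · exact hK _ _ _ _
    · rw [Matrix.sub_apply, Matrix.smul_apply, Matrix.one_apply]
      refine sub_mem (hK _ _ _ _) (mul_mem (div_mem (one_mem _) (ofNat_mem K 6)) ?_)
      split_ifs
      · exact one_mem _
      · exact zero_mem _
  have hG : ∀ x y, (M x * M y).trace =
      blockDiagonal (fun _ : Fin 6 => (algebraMap ℚ ℂ).mapMatrix blk) x y := by
    rintro ⟨j, a⟩ ⟨k, c⟩
    have n1 : ∀ a : Fin 6, Fin.last 6 ≠ a.castSucc := fun a => (Fin.castSucc_lt_last a).ne'
    rw [hM, blockDiagonal_apply]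
    simp only [RingHom.mapMatrix_apply, map_apply, blk, of_apply]
    by_cases c1 : j = 5 <;> by_cases c2 : k = 5 <;> by_cases c3 : a = c <;>
      simp only [c1, c2, c3, if_true, if_false, Matrix.mul_sub, Matrix.sub_mul, trace_sub,
        Matrix.mul_smul, Matrix.smul_mul, Matrix.mul_one, Matrix.one_mul, trace_smul, h1, h2,
        h3 _ _ (n1 _), h3 _ _ (n1 _).symm, trace_one, smul_eq_mul, Fintype.card_fin]
    · simp
    · simp
    · simp
    · simp
    · simp
    · split_ifs <;> simp <;> norm_num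
    · rw [h3 _ _ (fun h => c3 (Fin.castSucc_injective _ h))]
      norm_num
  obtain ⟨V, hV⟩ : ∃ V : Matrix (Fin 6 × Fin 6) (Fin 6 × Fin 6) K,
    V = Matrix.of fun p x => ⟨M x p.1 p.2, hMK _ _ _⟩ := ⟨_, rfl⟩
  have e : (K.subtype.mapMatrix V)ᵀ * (K.subtype.mapMatrix V).submatrix (Equiv.prodComm _ _) id =
      blockDiagonal (fun _ : Fin 6 => (algebraMap ℚ ℂ).mapMatrix blk) := by
    ext x y
    rw [← hG, Matrix.mul_apply, Fintype.sum_prod_type]
    simp [hV, Matrix.trace, Matrix.mul_apply]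
  have d := congrArg Matrix.det e
  rw [det_mul, det_transpose, det_permute, sign_swap, det_blockDiagonal, ← RingHom.map_det,
    ← RingHom.map_det, Finset.prod_const, Finset.card_univ, Fintype.card_fin] at d
  have b0 : algebraMap ℚ ℂ blk.det ≠ 0 := by simpa using blk_det
  have bK : algebraMap ℚ ℂ blk.det ∈ K := SubfieldClass.ratCast_mem K _
  have zK : K.subtype V.det / algebraMap ℚ ℂ blk.det ^ 3 ∈ K := div_mem V.det.2 (pow_mem bK 3)
  have z2 : (K.subtype V.det / algebraMap ℚ ℂ blk.det ^ 3) ^ 2 = Complex.I ^ 2 := by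
    rw [Complex.I_sq, div_pow, div_eq_iff (pow_ne_zero _ (pow_ne_zero _ b0))]
    simp only [Units.val_neg, Units.val_one, Int.cast_neg, Int.cast_one] at d
    linear_combination -d
  rcases sq_eq_sq_iff_eq_or_eq_neg.1 z2 with h | h
  · exact h ▸ zK
  · exact neg_mem_iff.1 (h ▸ zK)

end Vale.Agent.P355
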