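import Vale.Agent.P355.DefsS

namespace Vale.Agent.P355

open Finset

theorem perm_pow_eq_one {n N : ℕ} (h : ∀ d, 0 < d → d ≤ n → d ∣ N) (σ : Equiv.Perm (Fin n)) :
    σ ^ N = 1 := by
  ext i
  have h1 : i ∈ Function.periodicPts σ := σ.injective.mem_periodicPts i
  have h2 := Function.minimalPeriod_pos_of_mem_periodicPts h1
  have h3 : Function.minimalPeriod σ i ≤ n := by
    simpa using Function.minimalPeriod_le_card (f := σ) (x := i)
  have h4 : Function.IsPeriodicPt σ N i :=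
    Function.isPeriodicPt_iff_minimalPeriod_dvd.mpr (h _ h2 h3)
  rw [Equiv.Perm.coe_pow, Equiv.Perm.one_apply]
  exact congrArg Fin.val h4

/-- `U` maps the lines of `B` to the lines of `C` along `σ` -/
def Mp (U : E6 ≃ₗᵢ[ℂ] E6) (B C : ONB) (σ : Equiv.Perm (Fin 6)) : Prop :=
  ∀ i, ∃ a : ℂ, U (B i) = a • C (σ i)

theorem norm_coef {U : E6 ≃ₗᵢ[ℂ] E6} {x y : E6} {a : ℂ} (hx : ‖x‖ = 1) (hy : ‖y‖ = 1)
    (h : U x = a • y) : ‖a‖ = 1 := by
  have := U.norm_map x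
  rwa [h, norm_smul, hy, hx, mul_one] at this

theorem exists_mp {U : E6 ≃ₗᵢ[ℂ] E6} {B C : ONB} (h : ∀ i, ∃ j, ∃ a : ℂ, U (B i) = a • C j) :
    ∃ σ, Mp U B C σ := by
  choose s a hs using h
  have hinj : Function.Injective s := by
    intro i i' hii
    by_contra hne
    have h0 : inner ℂ (U (B i)) (U (B i')) = 0 := by
      rw [U.inner_map_map]; exact B.orthonormal.2 hne
    have ha := norm_coef (B.orthonormal.1 i) (C.orthonormal.1 _) (hs i)
    have ha' := norm_coef (B.orthonormal.1 i') (C.orthonormal.1 _) (hs i')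
    rw [hs i, hs i', hii, inner_smul_left, inner_smul_right, inner_self_eq_norm_sq_to_K,
      C.orthonormal.1] at h0
    have := congrArg norm h0
    simp [ha, ha'] at this
  exact ⟨Equiv.ofBijective s (Finite.injective_iff_bijective.mp hinj), fun i => ⟨a i, hs i⟩⟩

theorem Mp.pow {U : E6 ≃ₗᵢ[ℂ] E6} {B : ONB} {σ : Equiv.Perm (Fin 6)} (h : Mp U B B σ) (n : ℕ) :
    Mp (U ^ n) B B (σ ^ n) := by
  induction n with
  | zero => intro i; exact ⟨1, by simp⟩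
  | succ n ih =>
    intro i
    obtain ⟨a, ha⟩ := ih i
    obtain ⟨b, hb⟩ := h ((σ ^ n) i)
    refine ⟨a * b, ?_⟩
    rw [pow_succ', pow_succ', LinearIsometryEquiv.coe_mul, Function.comp_apply, ha, map_smul, hb,
      smul_smul, Equiv.Perm.mul_apply]

theorem eig_eq {U : E6 ≃ₗᵢ[ℂ] E6} {x y : E6} {a b : ℂ} (ha : ‖a‖ = 1) (hx : U x = a • x)
    (hy : U y = b • y) (hxy : inner ℂ x y ≠ 0) : b = a := by
  have h := U.inner_map_map x y
  rw [hx, hy, inner_smul_left, inner_smul_right] at h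
  have h1 : (starRingEnd ℂ) a * b = 1 := by
    apply mul_right_cancel₀ hxy
    rw [one_mul, mul_assoc]; exact h
  have h2 : a * (starRingEnd ℂ) a = 1 := by
    rw [Complex.mul_conj, Complex.normSq_eq_norm_sq, ha]; simp
  calc b = (a * (starRingEnd ℂ) a) * b := by rw [h2, one_mul]
    _ = a := by rw [mul_assoc, h1, mul_one]

theorem prod_inv {U : E6 ≃ₗᵢ[ℂ] E6} {B : ONB} {σ : Equiv.Perm (Fin 6)} (h : Mp U B B σ)
    {x y : E6} {c : ℂ} (hc : ‖c‖ = 1) (hx : U x = c • x) (hy : U y = c • y) (i : Fin 6) :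
    inner ℂ x (B (σ i)) * inner ℂ (B (σ i)) y = inner ℂ x (B i) * inner ℂ (B i) y := by
  obtain ⟨a, ha⟩ := h i
  have hn := norm_coef (B.orthonormal.1 _) (B.orthonormal.1 _) ha
  have h1 := U.inner_map_map x (B i)
  have h2 := U.inner_map_map (B i) y
  rw [hx, ha, inner_smul_left, inner_smul_right] at h1
  rw [hy, ha, inner_smul_left, inner_smul_right] at h2
  have e1 : a * (starRingEnd ℂ) a = 1 := by
    rw [Complex.mul_conj, Complex.normSq_eq_norm_sq, hn]; simp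
  have e2 : c * (starRingEnd ℂ) c = 1 := by
    rw [Complex.mul_conj, Complex.normSq_eq_norm_sq, hc]; simp
  rw [← h1, ← h2]
  linear_combination (-(inner ℂ x (B (σ i)) * inner ℂ (B (σ i)) y)) * (c * (starRingEnd ℂ) c) * e1
    - (inner ℂ x (B (σ i)) * inner ℂ (B (σ i)) y) * e2

theorem five {U : E6 ≃ₗᵢ[ℂ] E6} {B C D : ONB} {σ τ ρ : Equiv.Perm (Fin 6)}
    (hBC : ∀ i j, ‖inner ℂ (B i) (C j)‖ ^ 2 = 1 / 6)
    (hBD : ∀ i j, ‖inner ℂ (B i) (D j)‖ ^ 2 = 1 / 6)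
    (hCD : ∀ i j, ‖inner ℂ (C i) (D j)‖ ^ 2 = 1 / 6)
    (hB : Mp U B B σ) (hC : Mp U C C τ) (hD : Mp U D D ρ)
    (hσ : σ ^ 5 = 1) (hτ : τ ^ 5 = 1) (hρ : ρ ^ 5 = 1) : ∃ c : ℂ, ∀ x, U x = c • x := by
  have : Fact (Nat.Prime 5) := ⟨by norm_num⟩
  have hfix : ∀ s : Equiv.Perm (Fin 6), s ^ 5 = 1 → ∃ i, s i = i := fun s hs =>
    Equiv.Perm.exists_fixed_point_of_prime (p := 5) (n := 1) (by simp) (by simpa using hs)
  have hne : ∀ z : ℂ, ‖z‖ ^ 2 = 1 / 6 → z ≠ 0 := by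
    rintro z hz rfl
    norm_num at hz
  obtain ⟨i0, hi0⟩ := hfix σ hσ
  obtain ⟨j0, hj0⟩ := hfix τ hτ
  obtain ⟨k0, hk0⟩ := hfix ρ hρ
  obtain ⟨c, hc⟩ := hC j0
  obtain ⟨d, hd⟩ := hD k0
  rw [hj0] at hc
  rw [hk0] at hd
  have hcn := norm_coef (C.orthonormal.1 _) (C.orthonormal.1 _) hc
  have hdc : d = c := eig_eq hcn hc hd (hne _ (hCD _ _))
  rw [hdc] at hd
  have hσ1 : σ = 1 := by
    by_contra hσ1
    have ho : orderOf σ = 5 := orderOf_eq_prime hσ hσ1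
    have hcyc : σ.IsCycle := Equiv.Perm.isCycle_of_prime_order (by rw [ho]; norm_num)
      (by rw [ho]; exact lt_of_le_of_lt (card_le_univ _) (by simp))
    have hsup : σ.support = univ.erase i0 := by
      apply eq_of_subset_of_card_le
      · intro i hi
        rw [mem_erase]
        refine ⟨?_, mem_univ _⟩
        rintro rfl
        exact (Equiv.Perm.mem_support.mp hi) hi0
      · rw [← hcyc.orderOf, ho, card_erase_of_mem (mem_univ _)]; simp
    set t : Fin 6 → ℂ := fun i => inner ℂ (C j0) (B i) * inner ℂ (B i) (D k0) with ht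
    have ht1 : ∀ i, t (σ i) = t i := fun i => prod_inv hB hcn hc hd i
    have ht2 : ∀ n : ℕ, ∀ i, t ((σ ^ n) i) = t i := by
      intro n
      induction n with
      | zero => intro i; rfl
      | succ n ih => intro i; rw [pow_succ', Equiv.Perm.mul_apply, ht1, ih]
    have htn : ∀ i, ‖t i‖ = 1 / 6 := by
      intro i
      have e1 := hBC i j0
      have e2 := hBD i k0
      rw [norm_inner_symm] at e1
      have e3 : ‖t i‖ ^ 2 = (1 / 6) ^ 2 := by
        simp only [ht, norm_mul, mul_pow, e1, e2]; norm_num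
      exact (pow_left_inj₀ (norm_nonneg _) (by norm_num) two_ne_zero).mp e3
    obtain ⟨i1, hi1⟩ : σ.support.Nonempty := by
      rw [← card_pos, ← hcyc.orderOf, ho]; norm_num
    have hconst : ∀ i ∈ univ.erase i0, t i = t i1 := by
      intro i hi
      rw [← hsup] at hi
      obtain ⟨n, hn⟩ := hcyc.exists_pow_eq (Equiv.Perm.mem_support.mp hi1)
        (Equiv.Perm.mem_support.mp hi)
      rw [← hn, ht2]
    have hsum : inner ℂ (C j0) (D k0) = t i0 + 5 * t i1 := by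
      rw [← B.sum_inner_mul_inner, ← add_sum_erase _ _ (mem_univ i0)]
      congr 1
      rw [sum_congr rfl hconst, sum_const, card_erase_of_mem (mem_univ _)]
      simp
    have h5 : ‖5 * t i1‖ ≤ ‖inner ℂ (C j0) (D k0)‖ + ‖t i0‖ := by
      have : 5 * t i1 = inner ℂ (C j0) (D k0) - t i0 := by rw [hsum]; ring
      rw [this]; exact norm_sub_le _ _
    rw [norm_mul, htn, htn] at h5
    have h6 := hCD j0 k0
    have h7 : ‖(5 : ℂ)‖ = 5 := by simp
    rw [h7] at h5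
    nlinarith [norm_nonneg (inner ℂ (C j0) (D k0))]
  subst hσ1
  have hall : ∀ i, U (B i) = c • B i := by
    intro i
    obtain ⟨a, ha⟩ := hB i
    rw [Equiv.Perm.one_apply] at ha
    have han := norm_coef (B.orthonormal.1 _) (B.orthonormal.1 _) ha
    rw [eig_eq han ha hc (hne _ (hBC _ _))]
    exact ha
  refine ⟨c, fun x => ?_⟩
  conv_lhs => rw [← B.sum_repr x]
  conv_rhs => rw [← B.sum_repr x]
  rw [map_sum, smul_sum]
  refine sum_congr rfl fun i _ => ?_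
  rw [map_smul, hall, smul_comm]

theorem twelve {U : E6 ≃ₗᵢ[ℂ] E6} {B C D : ONB}
    (hBC : ∀ i j, ‖inner ℂ (B i) (C j)‖ ^ 2 = 1 / 6)
    (hBD : ∀ i j, ‖inner ℂ (B i) (D j)‖ ^ 2 = 1 / 6)
    (hCD : ∀ i j, ‖inner ℂ (C i) (D j)‖ ^ 2 = 1 / 6)
    (hB : ∀ i, ∃ j, ∃ a : ℂ, U (B i) = a • B j) (hC : ∀ i, ∃ j, ∃ a : ℂ, U (C i) = a • C j)
    (hD : ∀ i, ∃ j, ∃ a : ℂ, U (D i) = a • D j) : ∃ c : ℂ, ∀ x, (U ^ 12) x = c • x := by
  obtain ⟨σ, hσ⟩ := exists_mp hB
  obtain ⟨τ, hτ⟩ := exists_mp hC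
  obtain ⟨ρ, hρ⟩ := exists_mp hD
  have h60 : ∀ s : Equiv.Perm (Fin 6), (s ^ 12) ^ 5 = 1 := by
    intro s
    rw [← pow_mul]
    refine perm_pow_eq_one (fun d h1 h2 => ?_) s
    interval_cases d <;> norm_num
  exact five hBC hBD hCD (hσ.pow 12) (hτ.pow 12) (hρ.pow 12) (h60 _) (h60 _) (h60 _)

theorem iter {m : ℕ} {B : Fin m → ONB} {U : E6 ≃ₗᵢ[ℂ] E6} {π : Equiv.Perm (Fin m)}
    (hU : ∀ k i, ∃ j, ∃ a : ℂ, U (B k i) = a • B (π k) j) (n : ℕ) :
    ∀ k i, ∃ j, ∃ a : ℂ, (U ^ n) (B k i) = a • B ((π ^ n) k) j := by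
  induction n with
  | zero => intro k i; exact ⟨i, 1, by simp⟩
  | succ n ih =>
    intro k i
    obtain ⟨j, a, ha⟩ := ih k i
    obtain ⟨l, b, hb⟩ := hU ((π ^ n) k) j
    refine ⟨l, a * b, ?_⟩
    rw [pow_succ', pow_succ', LinearIsometryEquiv.coe_mul, Function.comp_apply, ha, map_smul, hb,
      smul_smul, Equiv.Perm.mul_apply]

end Vale.Agent.P355
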